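import Vale.Agent.P078.W

/-! Constructors for positive functionals and the GNS cyclic vector. -/

namespace Vale.Agent.P078

open Filter Topology
open scoped ComplexOrder InnerProductSpace

universe u

variable {M : Type u} [CStarAlgebra M] [PartialOrder M] [StarOrderedRing M]

/-- `x ↦ ω (a* x a)` -/
noncomputable def conjP (ω : M →ₚ[ℂ] ℂ) (a : M) : M →ₚ[ℂ] ℂ :=
  PositiveLinearMap.mk₀
    { toFun := fun x => ω (star a * x * a)
      map_add' := fun x y => by simp [mul_add, add_mul]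
      map_smul' := fun c x => by simp }
    fun _ hx => ω.map_nonneg (star_left_conjugate_nonneg hx a)

@[simp] lemma conjP_apply (ω : M →ₚ[ℂ] ℂ) (a x : M) : conjP ω a x = ω (star a * x * a) := rfl

/-- `x ↦ |c| ω x` -/
noncomputable def smulP (c : ℝ) (ω : M →ₚ[ℂ] ℂ) : M →ₚ[ℂ] ℂ :=
  PositiveLinearMap.mk₀
    { toFun := fun x => ((|c| : ℝ) : ℂ) * ω x
      map_add' := fun x y => by simp [mul_add]
      map_smul' := fun d x => by simp [mul_left_comm] }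
    fun _ hx => mul_nonneg (by exact_mod_cast abs_nonneg c) (ω.map_nonneg hx)

lemma smulP_apply {c : ℝ} (hc : 0 ≤ c) (ω : M →ₚ[ℂ] ℂ) (x : M) : smulP c ω x = c * ω x := by
  change ((|c| : ℝ) : ℂ) * ω x = _
  rw [abs_of_nonneg hc]

lemma WAlg.Normal.conjP {𝒲 : WAlg M} {ω : M →ₚ[ℂ] ℂ} (h : 𝒲.Normal ω) (a : M) :
    𝒲.Normal (P078.conjP ω a) := h.mul (Star.star a) a

lemma WAlg.Normal.smulP {𝒲 : WAlg M} {ω : M →ₚ[ℂ] ℂ} (h : 𝒲.Normal ω) (c : ℝ) :
    𝒲.Normal (P078.smulP c ω) := h.const_mul _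

lemma WAlg.Normal.addP {𝒲 : WAlg M} {ω ω' : M →ₚ[ℂ] ℂ} (h : 𝒲.Normal ω) (h' : 𝒲.Normal ω') :
    𝒲.Normal (ω + ω' : M →ₚ[ℂ] ℂ) := h.add h'

/-- the vector of `x` in the GNS space -/
noncomputable def hat (ω : M →ₚ[ℂ] ℂ) (x : M) : ω.GNS := (ω.toPreGNS x : ω.PreGNS)

lemma gns_hat (ω : M →ₚ[ℂ] ℂ) (a x : M) : ω.gnsStarAlgHom a (hat ω x) = hat ω (a * x) := by
  simp [hat, PositiveLinearMap.gnsStarAlgHom]

lemma inner_hat (ω : M →ₚ[ℂ] ℂ) (x y : M) : ⟪hat ω x, hat ω y⟫_ℂ = ω (star x * y) := by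
  simp [hat, PositiveLinearMap.preGNS_inner_def]

lemma norm_hat (ω : M →ₚ[ℂ] ℂ) (x : M) : ‖hat ω x‖ = nrm ω x := by
  simp [hat, PositiveLinearMap.preGNS_norm_def, nrm]

lemma hat_add (ω : M →ₚ[ℂ] ℂ) (x y : M) : hat ω (x + y) = hat ω x + hat ω y := by
  simp [hat, UniformSpace.Completion.coe_add]

lemma hat_sub (ω : M →ₚ[ℂ] ℂ) (x y : M) : hat ω (x - y) = hat ω x - hat ω y := by
  simp [hat, UniformSpace.Completion.coe_sub]

lemma hat_smul (ω : M →ₚ[ℂ] ℂ) (c : ℂ) (x : M) : hat ω (c • x) = c • hat ω x := by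
  simp [hat, UniformSpace.Completion.coe_smul]

lemma denseRange_hat (ω : M →ₚ[ℂ] ℂ) : DenseRange (hat ω) :=
  (UniformSpace.Completion.denseRange_coe (α := ω.PreGNS)).comp
    ω.toPreGNS.surjective.denseRange (UniformSpace.Completion.continuous_coe _)

end Vale.Agent.P078
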