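import Mathlib

/-! Hilbert space lemmas: weak operator limits and a Kaplansky type lemma. -/

namespace Vale.Agent.P078

open Filter Topology
open scoped InnerProductSpace

variable {H : Type*} [NormedAddCommGroup H] [InnerProductSpace ℂ H] [CompleteSpace H]

/-- bounded ultrafilters of operators have weak operator limits (the limit sesquilinear form is
bounded) -/
theorem exists_wot_lim {I : Type*} (𝒰 : Ultrafilter I) {T : I → H →L[ℂ] H} {R : ℝ}
    (h : ∀ᶠ i in (𝒰 : Filter I), ‖T i‖ ≤ R) :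
    ∃ S : H →L[ℂ] H, ‖S‖ ≤ R ∧ ∀ ξ η, Tendsto (fun i => ⟪ξ, T i η⟫_ℂ) 𝒰 (𝓝 ⟪ξ, S η⟫_ℂ) := by
  have hR : 0 ≤ R := by
    obtain ⟨i, hi⟩ := h.exists
    exact (norm_nonneg _).trans hi
  have hb : ∀ ξ η : H, ∀ᶠ i in (𝒰 : Filter I), ‖⟪ξ, T i η⟫_ℂ‖ ≤ R * ‖ξ‖ * ‖η‖ := fun ξ η =>
    h.mono fun i hi => (norm_inner_le_norm _ _).trans (by
      have := ((T i).le_opNorm η).trans (mul_le_mul_of_nonneg_right hi (norm_nonneg η))
      calc ‖ξ‖ * ‖T i η‖ ≤ ‖ξ‖ * (R * ‖η‖) := mul_le_mul_of_nonneg_left this (norm_nonneg ξ)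
        _ = R * ‖ξ‖ * ‖η‖ := by ring)
  have hl : ∀ ξ η : H, ∃ z : ℂ, Tendsto (fun i => ⟪ξ, T i η⟫_ℂ) 𝒰 (𝓝 z) := by
    intro ξ η
    obtain ⟨z, -, hz⟩ := (isCompact_closedBall (0 : ℂ) (R * ‖ξ‖ * ‖η‖)).ultrafilter_le_nhds
      (𝒰.map fun i => ⟪ξ, T i η⟫_ℂ) (by
        rw [le_principal_iff, Ultrafilter.coe_map, mem_map]
        exact (hb ξ η).mono fun i hi => mem_closedBall_zero_iff.2 hi)
    exact ⟨z, hz⟩
  choose B hB using hl
  have hBn : ∀ ξ η, ‖B ξ η‖ ≤ R * ‖ξ‖ * ‖η‖ := fun ξ η => le_of_tendsto (hB ξ η).norm (hb ξ η)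
  let B1 : H →ₛₗ[starRingEnd ℂ] H →ₗ[ℂ] ℂ := LinearMap.mk₂'ₛₗ (starRingEnd ℂ) (RingHom.id ℂ) B
    (fun x y η => tendsto_nhds_unique (hB (x + y) η) (by
      simpa only [inner_add_left] using (hB x η).add (hB y η)))
    (fun c x η => tendsto_nhds_unique (hB (c • x) η) (by
      simpa only [inner_smul_left, smul_eq_mul] using (hB x η).const_mul (starRingEnd ℂ c)))
    (fun ξ x y => tendsto_nhds_unique (hB ξ (x + y)) (by
      simpa only [map_add, inner_add_right] using (hB ξ x).add (hB ξ y)))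
    (fun c ξ x => tendsto_nhds_unique (hB ξ (c • x)) (by
      simpa only [map_smul, inner_smul_right, smul_eq_mul, RingHom.id_apply]
        using (hB ξ x).const_mul c))
  let B2 : H →L⋆[ℂ] H →L[ℂ] ℂ := B1.mkContinuous₂ R hBn
  have e : ∀ ξ η, ⟪ξ, ContinuousLinearMap.adjoint
      (InnerProductSpace.continuousLinearMapOfBilin B2) η⟫_ℂ = B ξ η := fun ξ η => by
    rw [ContinuousLinearMap.adjoint_inner_right, InnerProductSpace.continuousLinearMapOfBilin_apply]
    rfl
  refine ⟨ContinuousLinearMap.adjoint (InnerProductSpace.continuousLinearMapOfBilin B2), ?_,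
    fun ξ η => by rw [e]; exact hB ξ η⟩
  generalize ContinuousLinearMap.adjoint (InnerProductSpace.continuousLinearMapOfBilin B2) = S at e
  refine S.opNorm_le_bound hR fun η => ?_
  have h1 := hBn (S η) η
  rw [← e, inner_self_eq_norm_sq_to_K, norm_pow, RCLike.norm_ofReal, abs_norm] at h1
  rcases (norm_nonneg (S η)).eq_or_lt with h0 | h0
  · rw [← h0]
    positivity
  · refine le_of_mul_le_mul_left ?_ h0
    nlinarith

/-- equals `t` on `[-1, 1]` and `2t/(1+t²)` outside -/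
noncomputable def kapF (t : ℝ) : ℝ := t / max 1 ((1 + t ^ 2) / 2)

lemma continuous_kapF : Continuous kapF := by
  refine continuous_id.div (by fun_prop) fun t => ?_
  exact (lt_of_lt_of_le one_pos (le_max_left _ _)).ne'

lemma abs_kapF_le (t : ℝ) : |kapF t| ≤ 1 := by
  have h0 : 0 < max 1 ((1 + t ^ 2) / 2) := lt_of_lt_of_le one_pos (le_max_left _ _)
  rw [kapF, abs_div, abs_of_pos h0, div_le_one h0]
  refine le_trans ?_ (le_max_right _ _)
  nlinarith [sq_nonneg (|t| - 1), sq_abs t]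

lemma kapF_eq {t : ℝ} (ht : |t| ≤ 1) : kapF t = t := by
  have : t ^ 2 ≤ 1 := (sq_le_one_iff_abs_le_one t).2 ht
  rw [kapF, max_eq_left (by linarith), div_one]

lemma kap_cfc_mem {T : H →L[ℂ] H} (hT : IsSelfAdjoint T) {K : Submodule ℂ H}
    (hK : IsClosed (K : Set H)) (hTK : ∀ η ∈ K, T η ∈ K) (f : ℝ → ℝ) :
    ∀ η ∈ K, cfc f T η ∈ K := by
  have := hK.completeSpace_coe
  have hP : IsSelfAdjoint K.starProjection := isSelfAdjoint_starProjection K
  have e1 : K.starProjection * T * K.starProjection = T * K.starProjection := by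
    ext η
    exact Submodule.starProjection_eq_self_iff.2 (hTK _ (K.starProjection_apply_mem η))
  have e2 : K.starProjection * T * K.starProjection = K.starProjection * T := by
    have := congrArg star e1
    rwa [star_mul, star_mul, star_mul, hP.star_eq, hT.star_eq, ← mul_assoc] at this
  have hc : Commute T K.starProjection := e1.symm.trans e2
  intro η hη
  have e3 := congrArg (fun S : H →L[ℂ] H => S η) (hc.cfc_real f).eq
  simp only [ContinuousLinearMap.mul_apply, Submodule.starProjection_eq_self_iff.2 hη] at e3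
  rw [e3]
  exact K.starProjection_apply_mem _

lemma kap_norm_cfc {f : ℝ → ℝ} {C : ℝ} (h : ∀ t, |f t| ≤ C) (a : H →L[ℂ] H) : ‖cfc f a‖ ≤ C :=
  norm_cfc_le ((abs_nonneg _).trans (h 0)) fun t _ => h t

lemma kap_closure {I : Type*} {l : Filter I} {A : I → H →L[ℂ] H} {C : ℝ} (hA : ∀ i, ‖A i‖ ≤ C)
    {D : Set H} (h : ∀ η ∈ D, Tendsto (fun i => A i η) l (𝓝 0)) :
    ∀ η ∈ closure D, Tendsto (fun i => A i η) l (𝓝 0) := by
  intro η hη
  rw [Metric.tendsto_nhds]
  intro ε hε
  have hC : 0 < |C| + 1 := by positivity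
  obtain ⟨ζ, hζ, hd⟩ := Metric.mem_closure_iff.1 hη (ε / 2 / (|C| + 1)) (by positivity)
  refine ((Metric.tendsto_nhds.1 (h ζ hζ)) (ε / 2) (by positivity)).mono fun i hi => ?_
  rw [dist_zero_right] at hi ⊢
  rw [dist_eq_norm, lt_div_iff₀ hC] at hd
  have h1 : A i η = A i (η - ζ) + A i ζ := by rw [map_sub, sub_add_cancel]
  have h2 : ‖A i (η - ζ)‖ ≤ (|C| + 1) * ‖η - ζ‖ := ((A i).le_opNorm _).trans
    (mul_le_mul_of_nonneg_right ((hA i).trans (by linarith [le_abs_self C])) (norm_nonneg _))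
  have h3 := norm_add_le (A i (η - ζ)) (A i ζ)
  rw [h1]
  linarith

lemma kap_bdd {I : Type*} {l : Filter I} {A : I → H →L[ℂ] H} {C : ℝ} (hA : ∀ i, ‖A i‖ ≤ C)
    {v : I → H} (h : Tendsto v l (𝓝 0)) : Tendsto (fun i => A i (v i)) l (𝓝 0) := by
  refine squeeze_zero_norm (fun i => ((A i).le_opNorm _).trans
    (mul_le_mul_of_nonneg_right (hA i) (norm_nonneg _))) ?_
  simpa using h.norm.const_mul C

/-- `1 / (1 + t²)` -/
noncomputable def kapB (t : ℝ) : ℝ := 1 / (1 + t ^ 2)
/-- `t / (1 + t²)` -/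
noncomputable def kapC (t : ℝ) : ℝ := t * kapB t

lemma continuous_kapB : Continuous kapB :=
  continuous_const.div (by fun_prop) fun t => by positivity

lemma continuous_kapC : Continuous kapC := continuous_id.mul continuous_kapB

lemma kapB_mem (t : ℝ) : kapB t ∈ Set.Icc (0 : ℝ) 1 :=
  ⟨by unfold kapB; positivity, (div_le_one (by positivity)).2 (by nlinarith [sq_nonneg t])⟩

lemma abs_kapB_le (t : ℝ) : |kapB t| ≤ 1 := by
  rw [abs_of_nonneg (kapB_mem t).1]
  exact (kapB_mem t).2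

lemma abs_kapC_le (t : ℝ) : |kapC t| ≤ 1 := by
  have h0 : 0 < 1 + t ^ 2 := by positivity
  rw [kapC, kapB, mul_one_div, abs_div, abs_of_pos h0, div_le_one h0]
  nlinarith [sq_nonneg (|t| - 1), sq_abs t, abs_nonneg t]

lemma kap_res {a : H →L[ℂ] H} (ha : IsSelfAdjoint a) {z : ℂ} (hz : z * z = -1) :
    (a + z • 1) * (cfc kapC a - z • cfc kapB a) = 1 ∧
      (cfc kapC a - z • cfc kapB a) * (a + z • 1) = 1 := by
  have hB := continuous_kapB
  have hC := continuous_kapC
  have e1 : a * cfc kapB a = cfc kapC a := by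
    have := cfc_mul (fun t : ℝ => t) kapB a
    rw [cfc_id' ℝ a] at this
    exact this.symm
  have e2 : a * cfc kapC a + cfc kapB a = 1 := by
    have h1 := cfc_mul (fun t : ℝ => t) kapC a
    rw [cfc_id' ℝ a] at h1
    rw [← h1, ← cfc_add a (fun t => t * kapC t) kapB, ← cfc_one ℝ a]
    congr 1
    funext t
    have h0 : 1 + t ^ 2 ≠ 0 := by positivity
    simp only [kapC, kapB, Pi.one_apply]
    field_simp
    ring
  have c1 : cfc kapB a * a = a * cfc kapB a := ((Commute.refl a).cfc_real kapB).eq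
  have c2 : cfc kapC a * a = a * cfc kapC a := ((Commute.refl a).cfc_real kapC).eq
  constructor
  · simp only [add_mul, mul_sub, mul_smul_comm, smul_mul_assoc, one_mul, e1, smul_smul, hz,
      smul_add]
    rw [← e2]
    module
  · simp only [mul_add, sub_mul, mul_smul_comm, smul_mul_assoc, mul_one, c1, c2, e1, smul_sub,
      smul_smul, hz]
    rw [← e2]
    module

/-- bounded continuous functions which pass to the strong limit on `K` -/
def KapGood {I : Type*} (l : Filter I) (n : I → H →L[ℂ] H) (T : H →L[ℂ] H) (K : Submodule ℂ H)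
    (f : ℝ → ℝ) : Prop :=
  Continuous f ∧ (∃ C, ∀ t, |f t| ≤ C) ∧
    ∀ η ∈ K, Tendsto (fun i => cfc f (n i) η) l (𝓝 (cfc f T η))

section good

variable {I : Type*} {l : Filter I} {n : I → H →L[ℂ] H} {T : H →L[ℂ] H} {K : Submodule ℂ H}
  {f g : ℝ → ℝ}

lemma KapGood.const (hn : ∀ i, IsSelfAdjoint (n i)) (hT : IsSelfAdjoint T) (c : ℝ) :
    KapGood l n T K fun _ => c := by
  refine ⟨continuous_const, ⟨|c|, fun _ => le_rfl⟩, fun η _ => ?_⟩
  simp only [cfc_const c _ (hn _), cfc_const c _ hT]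
  exact tendsto_const_nhds

lemma KapGood.add (hf : KapGood l n T K f) (hg : KapGood l n T K g) :
    KapGood l n T K fun t => f t + g t := by
  obtain ⟨f1, ⟨C, hC⟩, f3⟩ := hf
  obtain ⟨g1, ⟨C', hC'⟩, g3⟩ := hg
  refine ⟨f1.add g1, ⟨C + C', fun t => (abs_add_le _ _).trans (add_le_add (hC t) (hC' t))⟩,
    fun η hη => ?_⟩
  simp only [cfc_add _ f g f1.continuousOn g1.continuousOn, ContinuousLinearMap.add_apply]
  exact (f3 η hη).add (g3 η hη)

lemma KapGood.mul (hK : ∀ η ∈ K, cfc g T η ∈ K) (hf : KapGood l n T K f)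
    (hg : KapGood l n T K g) : KapGood l n T K fun t => f t * g t := by
  obtain ⟨f1, ⟨C, hC⟩, f3⟩ := hf
  obtain ⟨g1, ⟨C', hC'⟩, g3⟩ := hg
  refine ⟨f1.mul g1, ⟨C * C', fun t => ?_⟩, fun η hη => ?_⟩
  · rw [abs_mul]
    exact mul_le_mul (hC t) (hC' t) (abs_nonneg _) ((abs_nonneg _).trans (hC t))
  simp only [cfc_mul f g _ f1.continuousOn g1.continuousOn, ContinuousLinearMap.mul_apply]
  have h1 := (kap_bdd (fun i => kap_norm_cfc hC (n i))
    (tendsto_sub_nhds_zero_iff.2 (g3 η hη))).add (f3 _ (hK η hη))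
  simpa only [map_sub, sub_add_cancel, zero_add] using h1

lemma KapGood.lim (hf : Continuous f) (h : ∀ ε > 0, ∃ g, KapGood l n T K g ∧ ∀ t, |f t - g t| ≤ ε) :
    KapGood l n T K f := by
  refine ⟨hf, ?_, fun η hη => ?_⟩
  · obtain ⟨g, ⟨-, ⟨C, hC⟩, -⟩, hg⟩ := h 1 one_pos
    refine ⟨1 + C, fun t => ?_⟩
    have := abs_add_le (f t - g t) (g t)
    rw [sub_add_cancel] at this
    linarith [hg t, hC t]
  rw [Metric.tendsto_nhds]
  intro ε hε
  have hp : 0 < ‖η‖ + 1 := by positivity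
  obtain ⟨g, ⟨g1, -, g3⟩, hg⟩ := h (ε / 3 / (‖η‖ + 1)) (by positivity)
  have key : ∀ a : H →L[ℂ] H, dist (cfc f a η) (cfc g a η) ≤ ε / 3 := by
    intro a
    have h1 := kap_norm_cfc hg a
    rw [cfc_sub f g a hf.continuousOn g1.continuousOn] at h1
    rw [dist_eq_norm, ← ContinuousLinearMap.sub_apply]
    refine (ContinuousLinearMap.le_opNorm _ _).trans ?_
    calc _ ≤ ε / 3 / (‖η‖ + 1) * (‖η‖ + 1) :=
          mul_le_mul h1 (by linarith) (norm_nonneg _) (by positivity)
      _ = ε / 3 := by field_simp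
  refine ((Metric.tendsto_nhds.1 (g3 η hη)) (ε / 3) (by positivity)).mono fun i hi => ?_
  have h1 := dist_triangle4 (cfc f (n i) η) (cfc g (n i) η) (cfc g T η) (cfc f T η)
  have h2 := key (n i)
  have h3 := key T
  rw [dist_comm] at h3
  linarith

end good

/-- Strong resolvent convergence on `K`: with `R(n) = (n + i)⁻¹`,
`R(n) - R(T) = R(n) (T - n) R(T)`, `‖R(n) (T - n)‖ ≤ ‖T‖ + 1`, and `R(T)` preserves `K`.
Then `b = (1+n²)⁻¹` and `n b` converge strongly on `K` (real and imaginary parts), and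
`kapF n = n b h(b)` with `h s = 1 / max s (1/2)`, a uniform limit of polynomials on `[0,1]`. -/
theorem kaplansky {I : Type*} {l : Filter I} {n : I → H →L[ℂ] H} {T : H →L[ℂ] H}
    (hn : ∀ i, IsSelfAdjoint (n i)) (hT : IsSelfAdjoint T) (hT1 : ‖T‖ ≤ 1)
    {K : Submodule ℂ H} (hK : IsClosed (K : Set H)) (hTK : ∀ η ∈ K, T η ∈ K) {D : Set H}
    (hD : (K : Set H) ⊆ closure D) (hlim : ∀ η ∈ D, Tendsto (fun i => n i η) l (𝓝 (T η))) :
    ∀ η ∈ K, Tendsto (fun i => cfc kapF (n i) η) l (𝓝 (T η)) := by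
  have hinv := kap_cfc_mem hT hK hTK
  have res : ∀ z : ℂ, z * z = -1 → ‖z‖ = 1 → ∀ η ∈ K,
      Tendsto (fun i => cfc kapC (n i) η - z • cfc kapB (n i) η) l
        (𝓝 (cfc kapC T η - z • cfc kapB T η)) := by
    intro z hz hz1 η hη
    have hR : ∀ a : H →L[ℂ] H, ‖cfc kapC a - z • cfc kapB a‖ ≤ 2 := fun a => by
      have h1 := norm_sub_le (cfc kapC a) (z • cfc kapB a)
      rw [norm_smul, hz1, one_mul] at h1
      linarith [kap_norm_cfc abs_kapC_le a, kap_norm_cfc abs_kapB_le a]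
    have e : ∀ i, (cfc kapC (n i) - z • cfc kapB (n i)) * (T - n i) =
        (cfc kapC (n i) - z • cfc kapB (n i)) * (T + z • 1) - 1 := fun i => by
      rw [← add_sub_add_right_eq_sub T (n i) (z • 1), mul_sub, (kap_res (hn i) hz).2]
    have hA : ∀ i, ‖(cfc kapC (n i) - z • cfc kapB (n i)) * (T - n i)‖ ≤
        2 * ‖T + z • 1‖ + ‖(1 : H →L[ℂ] H)‖ := fun i => by
      rw [e]
      exact (norm_sub_le _ _).trans (add_le_add ((norm_mul_le _ _).trans
        (mul_le_mul_of_nonneg_right (hR _) (norm_nonneg _))) le_rfl)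
    have h1 := kap_closure (l := l) hA (D := D) (fun ζ hζ =>
      kap_bdd (v := fun i => T ζ - n i ζ) (fun i => hR (n i)) (by
        simpa only [sub_self] using (tendsto_const_nhds (x := T ζ)).sub (hlim ζ hζ)))
      ((cfc kapC T - z • cfc kapB T) η)
      (hD (K.sub_mem (hinv kapC η hη) (K.smul_mem z (hinv kapB η hη))))
    refine tendsto_sub_nhds_zero_iff.1 (h1.congr fun i => ?_)
    rw [← ContinuousLinearMap.mul_apply, e, sub_mul, mul_assoc, (kap_res hT hz).1, mul_one,
      one_mul]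
    rfl
  have r1 := res Complex.I Complex.I_mul_I Complex.norm_I
  have r2 := res (-Complex.I) (by rw [neg_mul_neg, Complex.I_mul_I]) (by simp)
  have gC : KapGood l n T K kapC := by
    refine ⟨continuous_kapC, ⟨1, abs_kapC_le⟩, fun η hη => ?_⟩
    have e : ∀ x y : H, (1 / 2 : ℂ) • ((x - Complex.I • y) + (x - (-Complex.I) • y)) = x :=
      fun x y => by module
    simpa only [e] using ((r1 η hη).add (r2 η hη)).const_smul (1 / 2 : ℂ)
  have gB : KapGood l n T K kapB := by
    refine ⟨continuous_kapB, ⟨1, abs_kapB_le⟩, fun η hη => ?_⟩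
    have e : ∀ x y : H, Complex.I • ((x - Complex.I • y) - x) = y := fun x y => by
      rw [sub_sub_cancel_left, smul_neg, smul_smul, Complex.I_mul_I, neg_one_smul, neg_neg]
    simpa only [e] using ((r1 η hη).sub (gC.2.2 η hη)).const_smul Complex.I
  have gP : ∀ p : Polynomial ℝ, KapGood l n T K fun t => p.eval (kapB t) := by
    intro p
    induction p using Polynomial.induction_on with
    | C a => simpa only [Polynomial.eval_C] using KapGood.const hn hT a
    | add p q hp hq => simpa only [Polynomial.eval_add] using hp.add hq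
    | monomial k a h =>
      simpa only [pow_succ, ← mul_assoc, Polynomial.eval_mul, Polynomial.eval_X] using
        h.mul (hinv kapB) gB
  have hh : Continuous fun s : ℝ => 1 / max s (1 / 2) :=
    continuous_const.div (by fun_prop) fun s =>
      (lt_of_lt_of_le (by norm_num) (le_max_right _ _)).ne'
  have gH : KapGood l n T K fun t => 1 / max (kapB t) (1 / 2) := by
    refine KapGood.lim (hh.comp continuous_kapB) fun ε hε => ?_
    obtain ⟨p, hp⟩ := exists_polynomial_near_of_continuousOn 0 1 _ hh.continuousOn ε hε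
    exact ⟨_, gP p, fun t => by rw [abs_sub_comm]; exact (hp _ (kapB_mem t)).le⟩
  have gF := gH.mul (hinv kapC) gC
  have e : (fun t => 1 / max (kapB t) (1 / 2) * kapC t) = kapF := by
    funext t
    have h0 : 0 < 1 + t ^ 2 := by positivity
    have h1 : max 1 ((1 + t ^ 2) / 2) = (1 + t ^ 2) * max (kapB t) (1 / 2) := by
      rw [mul_max_of_nonneg _ _ h0.le, kapB, mul_one_div_cancel h0.ne', mul_one_div]
    have h2 : max (kapB t) (1 / 2) ≠ 0 := (lt_of_lt_of_le (by norm_num) (le_max_right _ _)).ne'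
    rw [kapF, h1, kapC]
    generalize max (kapB t) (1 / 2) = u at h2
    rw [kapB]
    field_simp
  rw [e] at gF
  have eT : cfc kapF T = T := by
    refine (cfc_congr (g := fun t : ℝ => t) fun t ht => kapF_eq ?_).trans (cfc_id' ℝ T)
    have := norm_apply_le_norm_cfc (fun t : ℝ => t) T ht
    rw [cfc_id' ℝ T] at this
    exact this.trans hT1
  intro η hη
  simpa only [eT] using gF.2.2 η hη

end Vale.Agent.P078
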