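import Mathlib

/-! A projection onto a reducing subspace commutes with the operator. -/

namespace Vale.Agent.P078.NormalAux

open scoped InnerProductSpace

variable {H : Type*} [NormedAddCommGroup H] [InnerProductSpace ℂ H] [CompleteSpace H]

lemma proj_comm (K : Submodule ℂ H) [K.HasOrthogonalProjection] {T : H →L[ℂ] H}
    (h1 : ∀ η ∈ K, T η ∈ K) (h2 : ∀ η ∈ K, star T η ∈ K) (η : H) :
    K.starProjection (T η) = T (K.starProjection η) := by
  refine K.eq_starProjection_of_mem_of_inner_eq_zero (h1 _ (K.starProjection_apply_mem η))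
    fun w hw => ?_
  rw [← map_sub, ← ContinuousLinearMap.adjoint_inner_right]
  exact K.starProjection_inner_eq_zero η _ (h2 w hw)

lemma closure_inv (S : Submodule ℂ H) {T : H →L[ℂ] H} (h : ∀ η ∈ S, T η ∈ S) :
    ∀ η ∈ S.topologicalClosure, T η ∈ S.topologicalClosure := fun _ hη =>
  map_mem_closure T.continuous hη h

lemma inner_star_left (T : H →L[ℂ] H) (x y : H) : ⟪star T x, y⟫_ℂ = ⟪x, T y⟫_ℂ :=
  ContinuousLinearMap.adjoint_inner_left T y x

lemma inner_star_right (T : H →L[ℂ] H) (x y : H) : ⟪x, star T y⟫_ℂ = ⟪T x, y⟫_ℂ :=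
  ContinuousLinearMap.adjoint_inner_right T x y

end Vale.Agent.P078.NormalAux
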