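import Vale.Agent.P078.Kap
import Vale.Agent.P078.NormalAux

/-! Sakai's linear Radon-Nikodym lemma and the Rieffel-van Daele duality lemma. -/

namespace Vale.Agent.P078

open Filter Topology
open scoped InnerProductSpace

variable {H : Type*} [NormedAddCommGroup H] [InnerProductSpace ℂ H] [CompleteSpace H]

namespace SakaiAux

open NormalAux

variable {B : Type*} [CStarAlgebra B] (π : B →⋆ₐ[ℂ] (H →L[ℂ] H)) (ξ : H)

lemma inner_sa {c : B} (hc : IsSelfAdjoint c) (η ζ : H) : ⟪π c η, ζ⟫_ℂ = ⟪η, π c ζ⟫_ℂ := by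
  rw [← inner_star_left, ← map_star, hc.star_eq]

lemma cfc_sq (c : B) {f : ℝ → ℝ} (hf : Continuous f) (h0 : ∀ s, 0 ≤ f s) :
    ∃ η : H, ∀ T : H →L[ℂ] H, (∀ b, π b * T = T * π b) →
      ⟪ξ, π (cfc f c) (T ξ)⟫_ℂ = ⟪η, T η⟫_ℂ := by
  have hg : Continuous fun s => √(f s) := by fun_prop
  refine ⟨π (cfc (fun s => √(f s)) c) ξ, fun T hT => ?_⟩
  have e : cfc f c = cfc (fun s => √(f s)) c * cfc (fun s => √(f s)) c := by
    rw [← cfc_mul _ _ c hg.continuousOn hg.continuousOn]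
    exact cfc_congr fun s _ => (Real.mul_self_sqrt (h0 s)).symm
  rw [e, map_mul, ContinuousLinearMap.mul_apply, inner_sa π (cfc_predicate _ c),
    ← ContinuousLinearMap.mul_apply _ T, hT, ContinuousLinearMap.mul_apply]

lemma cfc_re_nonneg (c : B) {f : ℝ → ℝ} (hf : Continuous f) (h0 : ∀ s, 0 ≤ f s) :
    0 ≤ (⟪ξ, π (cfc f c) ξ⟫_ℂ).re := by
  obtain ⟨η, h⟩ := cfc_sq π ξ c hf h0
  have := h 1 (by simp)
  simp only [ContinuousLinearMap.one_apply] at this
  rw [this]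
  exact inner_self_nonneg (𝕜 := ℂ)

lemma cfc_re_le (c : B) {f : ℝ → ℝ} (hf : Continuous f) (h0 : ∀ s, 0 ≤ f s) {t : H →L[ℂ] H}
    (hc : ∀ b, π b * t = t * π b) :
    |(⟪ξ, π (cfc f c) (t ξ)⟫_ℂ).re| ≤ ‖t‖ * (⟪ξ, π (cfc f c) ξ⟫_ℂ).re := by
  obtain ⟨η, h⟩ := cfc_sq π ξ c hf h0
  have h1 := h 1 (by simp)
  simp only [ContinuousLinearMap.one_apply] at h1
  rw [h1, h t hc]
  have h2 : (⟪η, η⟫_ℂ).re = ‖η‖ * ‖η‖ := inner_self_eq_norm_mul_norm (𝕜 := ℂ) η
  rw [h2]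
  refine (Complex.abs_re_le_norm _).trans ((norm_inner_le_norm _ _).trans ?_)
  rw [mul_left_comm]
  exact mul_le_mul_of_nonneg_left (t.le_opNorm η) (norm_nonneg _)

lemma test {c : B} (hs : IsSelfAdjoint c) {t : H →L[ℂ] H} (hc : ∀ b, π b * t = t * π b)
    {ε : ℝ} (hε : 0 < ε) : ∃ x, IsSelfAdjoint x ∧ ‖x‖ ≤ 1 ∧ (⟪π c ξ, π x ξ⟫_ℂ).im = 0 ∧
      (⟪π c ξ, t ξ⟫_ℂ).re ≤ ‖t‖ * ((⟪π c ξ, π x ξ⟫_ℂ).re + ε * (⟪ξ, ξ⟫_ℂ).re) := by
  have hpos : ∀ s : ℝ, 0 < |s| + ε := fun s => by positivity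
  have hg : Continuous fun s : ℝ => s / (|s| + ε) :=
    continuous_id.div (by fun_prop) fun s => (hpos s).ne'
  have hd : Continuous fun s : ℝ => ε ^ 2 / (|s| + ε) :=
    continuous_const.div (by fun_prop) fun s => (hpos s).ne'
  have hp : Continuous fun s : ℝ => max s 0 := by fun_prop
  have hn : Continuous fun s : ℝ => max (-s) 0 := by fun_prop
  set x := cfc (fun s : ℝ => s / (|s| + ε)) c with hx
  have e1 : c * x = cfc (fun s : ℝ => s * (s / (|s| + ε))) c := by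
    rw [cfc_mul _ _ c (continuousOn_id' _) hg.continuousOn, cfc_id' ℝ c]
  have e2 : c = cfc (fun s : ℝ => max s 0) c - cfc (fun s : ℝ => max (-s) 0) c := by
    rw [← cfc_sub _ _ c hp.continuousOn hn.continuousOn]
    conv_lhs => rw [← cfc_id' ℝ c]
    exact cfc_congr fun s _ => (max_zero_sub_max_neg_zero_eq_self s).symm
  have e3 : c * x + algebraMap ℝ B ε = cfc (fun s : ℝ => max s 0) c +
      cfc (fun s : ℝ => max (-s) 0) c + cfc (fun s : ℝ => ε ^ 2 / (|s| + ε)) c := by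
    rw [e1, ← cfc_add c _ _ hp.continuousOn hn.continuousOn,
      ← cfc_add c _ _ (hp.fun_add hn).continuousOn hd.continuousOn, ← cfc_const ε c,
      ← cfc_add c _ _ (continuous_id'.fun_mul hg).continuousOn continuousOn_const]
    refine cfc_congr fun s _ => ?_
    have := (hpos s).ne'
    simp only [max_zero_add_max_neg_zero_eq_abs_self]
    field_simp
    rw [← sq_abs s]
    ring
  have e4 : ⟪π c ξ, π x ξ⟫_ℂ = ⟪ξ, π (c * x) ξ⟫_ℂ := by
    rw [inner_sa π hs, map_mul, ContinuousLinearMap.mul_apply]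
  refine ⟨x, cfc_predicate _ c, norm_cfc_le zero_le_one fun s _ => ?_, ?_, ?_⟩
  · rw [Real.norm_eq_abs, abs_div, abs_of_pos (hpos s), div_le_one (hpos s)]
    linarith
  · have hsa : IsSelfAdjoint (c * x) := by rw [e1]; exact cfc_predicate _ c
    rw [e4, ← Complex.conj_eq_iff_im, inner_conj_symm, inner_sa π hsa]
  · have k1 := (abs_le.1 (cfc_re_le π ξ c hp (fun s => le_max_right _ _) hc)).2
    have k2 := (abs_le.1 (cfc_re_le π ξ c hn (fun s => le_max_right _ _) hc)).1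
    have k3 := mul_nonneg (norm_nonneg t)
      (cfc_re_nonneg π ξ c hd fun s => div_nonneg (sq_nonneg _) (hpos s).le)
    have k4 := congrArg (fun b => (⟪ξ, π b ξ⟫_ℂ).re) e3
    have k5 := congrArg (fun b => (⟪ξ, π b (t ξ)⟫_ℂ).re) e2
    simp only [map_add, map_sub, ContinuousLinearMap.add_apply, ContinuousLinearMap.sub_apply,
      inner_add_right, inner_sub_right, Complex.add_re, Complex.sub_re,
      Algebra.algebraMap_eq_smul_one, ← Complex.coe_smul, map_smul, map_one,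
      ContinuousLinearMap.smul_apply, ContinuousLinearMap.one_apply, inner_smul_right,
      Complex.re_ofReal_mul] at k4 k5
    rw [e4, inner_sa π hs, k5, k4]
    linarith

/-- the real pairing -/
noncomputable def pair : H →ₗ[ℝ] selfAdjoint B →ₗ[ℝ] ℝ :=
  LinearMap.mk₂ ℝ (fun v c => (⟪π c ξ, v⟫_ℂ).re)
    (fun v w c => by rw [inner_add_right, Complex.add_re])
    (fun r v c => by rw [← Complex.coe_smul, inner_smul_right, Complex.re_ofReal_mul, smul_eq_mul])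
    (fun v c d => by simp [inner_add_left])
    (fun r v c => by
      rw [selfAdjoint.val_smul, ← Complex.coe_smul, map_smul, ContinuousLinearMap.smul_apply,
        inner_smul_left, Complex.conj_ofReal, Complex.re_ofReal_mul, smul_eq_mul])

lemma pair_apply (v : H) (c : selfAdjoint B) : pair π ξ v c = (⟪π c ξ, v⟫_ℂ).re := rfl

end SakaiAux

open NormalAux SakaiAux

/-- Let `K` be the real closure of `π(B_sa) ξ`, `P` the real orthogonal projection on it and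
`R = ‖t‖ / Re lam`. The set `{P (lam π x ξ) : x = x*, ‖x‖ ≤ R}` is convex, bounded and closed
(`hwc`). If it misses `P (t ξ)`, separate by a vector of `K`, hence by some `π c ξ`; test with
`x = R c / (|c| + ε)` and use `π c * t ≤ ‖t‖ π |c|`. -/
theorem sakai {B : Type*} [CStarAlgebra B] (π : B →⋆ₐ[ℂ] (H →L[ℂ] H)) (ξ : H)
    (hwc : ∀ (𝒰 : Ultrafilter B) (R : ℝ), (∀ᶠ x in (𝒰 : Filter B), IsSelfAdjoint x ∧ ‖x‖ ≤ R) →
      ∃ y, IsSelfAdjoint y ∧ ‖y‖ ≤ R ∧
        ∀ c, Tendsto (fun x => ⟪π c ξ, π x ξ⟫_ℂ) 𝒰 (𝓝 ⟪π c ξ, π y ξ⟫_ℂ))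
    {t : H →L[ℂ] H} (ht : IsSelfAdjoint t) (hc : ∀ b, π b * t = t * π b) {lam : ℂ}
    (hlam : 0 < lam.re) :
    ∃ x, IsSelfAdjoint x ∧ ∀ c, IsSelfAdjoint c →
      (⟪π c ξ, t ξ⟫_ℂ).re = (lam * ⟪π c ξ, π x ξ⟫_ℂ).re := by
  set R := ‖t‖ / lam.re with hR
  have hR0 : 0 ≤ R := div_nonneg (norm_nonneg _) hlam.le
  let C : Set (WeakBilin (pair π ξ)) := {v | ∃ x, (IsSelfAdjoint x ∧ ‖x‖ ≤ R) ∧
    ∀ c : selfAdjoint B, pair π ξ v c = (lam * ⟪π c ξ, π x ξ⟫_ℂ).re}
  have hconv : Convex ℝ C := by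
    rintro v ⟨x, ⟨h1, h2⟩, h3⟩ w ⟨y, ⟨k1, k2⟩, k3⟩ a b ha hb hab
    refine ⟨a • x + b • y, ⟨((IsSelfAdjoint.all a).smul h1).add ((IsSelfAdjoint.all b).smul k1),
      ?_⟩, fun c => ?_⟩
    · refine (norm_add_le _ _).trans ?_
      rw [norm_smul, norm_smul, Real.norm_of_nonneg ha, Real.norm_of_nonneg hb]
      calc a * ‖x‖ + b * ‖y‖ ≤ a * R + b * R :=
            add_le_add (mul_le_mul_of_nonneg_left h2 ha) (mul_le_mul_of_nonneg_left k2 hb)
        _ = R := by rw [← add_mul, hab, one_mul]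
    · have e : pair π ξ (a • v + b • w : WeakBilin (pair π ξ)) c =
          a * pair π ξ v c + b * pair π ξ w c := by
        have := ((WeakBilin.eval (pair π ξ) c).map_add (a • v) (b • w))
        rw [map_smul, map_smul] at this
        exact this
      rw [e, h3, k3]
      simp only [← Complex.coe_smul, map_add, map_smul, ContinuousLinearMap.add_apply,
        ContinuousLinearMap.smul_apply, inner_add_right, inner_smul_right, mul_add,
        mul_left_comm lam, Complex.add_re, Complex.re_ofReal_mul]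
  have hcl : IsClosed C := by
    refine isClosed_iff_ultrafilter.2 fun v u hu hC => ?_
    choose! g hg1 hg2 using fun (v : WeakBilin (pair π ξ)) (hv : v ∈ C) => hv
    obtain ⟨y, h1, h2, h3⟩ := hwc (u.map g) R (by
      filter_upwards [Ultrafilter.mem_map.2 (Filter.mem_of_superset hC fun v hv => hg1 v hv :
        g ⁻¹' {x | IsSelfAdjoint x ∧ ‖x‖ ≤ R} ∈ u)] with x hx using hx)
    refine ⟨y, ⟨h1, h2⟩, fun c => ?_⟩
    have k1 : Tendsto (fun w : WeakBilin (pair π ξ) => pair π ξ w c) u (𝓝 (pair π ξ v c)) :=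
      ((WeakBilin.eval_continuous (pair π ξ) c).tendsto v).mono_left hu
    have k2 : Tendsto (fun w => (lam * ⟪π c ξ, π (g w) ξ⟫_ℂ).re) u
        (𝓝 (lam * ⟪π c ξ, π y ξ⟫_ℂ).re) :=
      (Complex.continuous_re.tendsto _).comp ((h3 c).const_mul lam)
    refine tendsto_nhds_unique (k1.congr' ?_) k2
    filter_upwards [hC] with w hw using hg2 w hw c
  by_cases hmem : (t ξ : WeakBilin (pair π ξ)) ∈ C
  · obtain ⟨x, ⟨h1, -⟩, h3⟩ := hmem
    exact ⟨x, h1, fun c hc => h3 ⟨c, hc⟩⟩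
  exfalso
  obtain ⟨f, u, h1, h2⟩ := geometric_hahn_banach_closed_point hconv hcl hmem
  obtain ⟨c, rfl⟩ := LinearMap.dualEmbedding_surjective (pair π ξ) f
  change u < (⟪π c ξ, t ξ⟫_ℂ).re at h2
  have hξ : 0 ≤ (⟪ξ, ξ⟫_ℂ).re := inner_self_nonneg (𝕜 := ℂ)
  refine h2.not_ge (le_of_forall_pos_le_add fun ε hε => ?_)
  have hK : 0 < ‖t‖ * (⟪ξ, ξ⟫_ℂ).re + 1 := by positivity
  obtain ⟨x, k1, k2, k3, k4⟩ := test π ξ c.2 hc (div_pos hε hK)
  have k5 := h1 (lam • π (R • x) ξ : H) ⟨R • x, ⟨(IsSelfAdjoint.all R).smul k1, by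
    rw [norm_smul, Real.norm_of_nonneg hR0]
    exact mul_le_of_le_one_right hR0 k2⟩, fun c => by rw [pair_apply, inner_smul_right]⟩
  change (⟪π c ξ, lam • π (R • x) ξ⟫_ℂ).re < u at k5
  rw [inner_smul_right, ← Complex.coe_smul, map_smul, ContinuousLinearMap.smul_apply,
    inner_smul_right, Complex.mul_re, Complex.re_ofReal_mul, Complex.im_ofReal_mul, k3, mul_zero,
    mul_zero, sub_zero, ← mul_assoc, hR, mul_div_cancel₀ _ hlam.ne'] at k5
  have k6 : ‖t‖ * (ε / (‖t‖ * (⟪ξ, ξ⟫_ℂ).re + 1) * (⟪ξ, ξ⟫_ℂ).re) ≤ ε := by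
    rw [div_mul_eq_mul_div, ← mul_div_assoc, div_le_iff₀ hK]
    nlinarith
  linarith

/-- the commutant satisfies the compactness hypothesis of `sakai` (`exists_wot_lim`) -/
theorem sakai_commutant (S : Set (H →L[ℂ] H)) (ξ : H) {t : H →L[ℂ] H} (ht : IsSelfAdjoint t)
    (hc : ∀ b ∈ StarSubalgebra.centralizer ℂ S, b * t = t * b) {lam : ℂ} (hlam : 0 < lam.re) :
    ∃ x ∈ StarSubalgebra.centralizer ℂ S, IsSelfAdjoint x ∧
      ∀ c ∈ StarSubalgebra.centralizer ℂ S, IsSelfAdjoint c →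
        (⟪c ξ, t ξ⟫_ℂ).re = (lam * ⟪c ξ, x ξ⟫_ℂ).re := by
  haveI : IsClosed (StarSubalgebra.centralizer ℂ S : Set (H →L[ℂ] H)) :=
    Set.isClosed_centralizer _
  obtain ⟨x, h1, h2⟩ := sakai (StarSubalgebra.centralizer ℂ S).subtype ξ (fun 𝒰 R h => by
    obtain ⟨T, k1, k2⟩ := exists_wot_lim 𝒰
      (T := fun x : StarSubalgebra.centralizer ℂ S => (x : H →L[ℂ] H)) (h.mono fun x hx => hx.2)
    have hcomm : ∀ g : H →L[ℂ] H,
        (∀ x : StarSubalgebra.centralizer ℂ S, g * x = x * g) → g * T = T * g := fun g hg => by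
      ext η
      refine ext_inner_left ℂ fun ζ => ?_
      rw [ContinuousLinearMap.mul_apply, ContinuousLinearMap.mul_apply, ← inner_star_left]
      refine tendsto_nhds_unique ((k2 _ _).congr fun x => ?_) (k2 _ _)
      rw [inner_star_left, ← ContinuousLinearMap.mul_apply, hg, ContinuousLinearMap.mul_apply]
    have hT : T ∈ StarSubalgebra.centralizer ℂ S :=
      (StarSubalgebra.mem_centralizer_iff ℂ).2 fun g hg =>
        ⟨hcomm g fun x => ((StarSubalgebra.mem_centralizer_iff ℂ).1 x.2 g hg).1,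
          hcomm _ fun x => ((StarSubalgebra.mem_centralizer_iff ℂ).1 x.2 g hg).2⟩
    refine ⟨⟨T, hT⟩, Subtype.ext ?_, k1, fun c => k2 _ _⟩
    change star T = T
    ext η
    refine ext_inner_left ℂ fun ζ => ?_
    rw [inner_star_right, ← inner_conj_symm]
    refine tendsto_nhds_unique (((Complex.continuous_conj.tendsto _).comp (k2 η ζ)).congr' ?_)
      (k2 ζ η)
    filter_upwards [h] with x hx
    have e : star (x : H →L[ℂ] H) = x := congrArg Subtype.val hx.1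
    rw [Function.comp_apply, inner_conj_symm, ← inner_star_right, e]) ht
      (fun b => hc b b.2) hlam
  exact ⟨x, x.2, congrArg Subtype.val h1, fun c hc hs => h2 ⟨c, hc⟩ (Subtype.ext hs)⟩

/-- Let `p = (p_ij)` be the projection of `H ⊕ H` (`WithLp 2 (H × H)`) onto the closure of
`{(π m ξ, π m ζ)}`; the `p_ij` commute with `π(B)`. It fixes `(ξ, ζ)` and kills `(ζ, -ξ)`, so
`⟪ζ, p11 ζ⟫ = ⟪ζ, p12 ξ⟫ = -⟪p21 ξ, ζ⟫ = -⟪(1 - p22) ζ, ζ⟫ ≤ 0`; hence `p (ζ, 0) = 0`. -/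
theorem rvd_duality {B : Type*} [CStarAlgebra B] (π : B →⋆ₐ[ℂ] (H →L[ℂ] H)) {ξ ζ : H}
    (hξ : DenseRange fun b => π b ξ)
    (h1 : ∀ a, IsSelfAdjoint a → (⟪π a ξ, ζ⟫_ℂ).im = 0)
    (h2 : ∀ c ∈ StarSubalgebra.centralizer ℂ (Set.range π), IsSelfAdjoint c →
      (⟪c ξ, ζ⟫_ℂ).re = 0) : ζ = 0 := by
  let e := WithLp.prodContinuousLinearEquiv 2 ℂ H H
  let D : B → WithLp 2 (H × H) →L[ℂ] WithLp 2 (H × H) := fun b =>
    (e.symm : H × H →L[ℂ] _) ∘L (π b).prodMap (π b) ∘L (e : _ →L[ℂ] H × H)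
  have hD : ∀ b x y, D b (WithLp.toLp 2 (x, y)) = WithLp.toLp 2 (π b x, π b y) :=
    fun b x y => rfl
  have hin : ∀ x y z w : H, ⟪WithLp.toLp 2 (x, y), WithLp.toLp 2 (z, w)⟫_ℂ =
      ⟪x, z⟫_ℂ + ⟪y, w⟫_ℂ := fun x y z w => WithLp.prod_inner_apply _ _
  have hDs : ∀ b, star (D b) = D (star b) := fun b => by
    refine ((ContinuousLinearMap.eq_adjoint_iff _ _).2 ?_).symm
    rintro ⟨x, y⟩ ⟨z, w⟩
    rw [hD, hD, hin, hin, map_star, inner_star_left, inner_star_left]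
  let j : B →ₗ[ℂ] WithLp 2 (H × H) :=
    { toFun := fun b => D b (WithLp.toLp 2 (ξ, ζ))
      map_add' := fun x y => by simp [hD, ← WithLp.toLp_add]
      map_smul' := fun c x => by simp [hD, ← WithLp.toLp_smul] }
  have hj : ∀ b, j b = WithLp.toLp 2 (π b ξ, π b ζ) := fun b => rfl
  let L := (LinearMap.range j).topologicalClosure
  have hL : ∀ b, ∀ η ∈ L, D b η ∈ L := fun b => closure_inv _ (by
    rintro _ ⟨m, rfl⟩
    exact ⟨b * m, by rw [hj, hj, hD, map_mul]; rfl⟩)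
  have hP : ∀ b η, L.starProjection (D b η) = D b (L.starProjection η) := fun b =>
    proj_comm L (hL b) (by rw [hDs]; exact hL _)
  let T : H →L[ℂ] H := WithLp.sndL 2 ℂ H H ∘L L.starProjection ∘L (e.symm : H × H →L[ℂ] _) ∘L
    ContinuousLinearMap.inl ℂ H H
  have hT : ∀ x y, ⟪y, T x⟫_ℂ =
      ⟪WithLp.toLp 2 ((0 : H), y), L.starProjection (WithLp.toLp 2 (x, 0))⟫_ℂ := fun x y => by
    rw [WithLp.prod_inner_apply]
    simp [T, e]
  have hTc : ∀ b, π b * T = T * π b := fun b => by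
    ext x
    have := hP b (WithLp.toLp 2 (x, 0))
    rw [hD, map_zero] at this
    exact (congrArg (WithLp.sndL 2 ℂ H H) this).symm
  have hTm : T ∈ StarSubalgebra.centralizer ℂ (Set.range π) :=
    (StarSubalgebra.mem_centralizer_iff ℂ).2 (by
      rintro _ ⟨b, rfl⟩
      exact ⟨hTc b, by rw [← map_star]; exact hTc _⟩)
  have k1 := h2 (T + star T) (add_mem hTm (star_mem hTm)) (IsSelfAdjoint.add_star_self T)
  rw [ContinuousLinearMap.add_apply, inner_add_left, inner_star_left, ← inner_conj_symm,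
    Complex.add_re, Complex.conj_re, hT, hT] at k1
  set u := WithLp.toLp 2 (ξ, (0 : H))
  set v := WithLp.toLp 2 ((0 : H), ζ)
  set u' := WithLp.toLp 2 (ζ, (0 : H))
  set v' := WithLp.toLp 2 ((0 : H), ξ)
  have a1 : L.starProjection (u + v) = u + v := by
    refine Submodule.starProjection_eq_self_iff.2 (Submodule.le_topologicalClosure _ ⟨1, ?_⟩)
    rw [hj, map_one, ← WithLp.toLp_add]
    simp
  have a2 : L.starProjection (u' - v') = 0 := by
    refine (Submodule.starProjection_apply_eq_zero_iff L).2 ?_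
    rw [Submodule.orthogonal_closure, Submodule.mem_orthogonal]
    rintro _ ⟨m, rfl⟩
    have hs : ∀ a, IsSelfAdjoint a → ⟪π a ξ, ζ⟫_ℂ = ⟪π a ζ, ξ⟫_ℂ := fun a ha => by
      rw [← Complex.conj_eq_iff_im.2 (h1 a ha), inner_conj_symm, inner_sa π ha]
    have hm : ⟪π m ξ, ζ⟫_ℂ = ⟪π m ζ, ξ⟫_ℂ := by
      rw [← realPart_add_I_smul_imaginaryPart m]
      simp only [map_add, map_smul, ContinuousLinearMap.add_apply, ContinuousLinearMap.smul_apply,
        inner_add_left, inner_smul_left, hs _ (realPart m).2, hs _ (imaginaryPart m).2]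
    rw [hj, inner_sub_right, hin, hin, hm]
    simp
  have hre : ∀ w, (⟪w, L.starProjection w⟫_ℂ).re = ‖L.starProjection w‖ ^ 2 := fun w => by
    have := L.starProjection_inner_eq_zero w _ (L.starProjection_apply_mem w)
    rw [inner_sub_left, sub_eq_zero] at this
    rw [this]
    exact inner_self_eq_norm_sq (𝕜 := ℂ) (L.starProjection w)
  have b1 : (⟪v, L.starProjection u⟫_ℂ).re = ‖v‖ ^ 2 - ‖L.starProjection v‖ ^ 2 := by
    rw [map_add, ← eq_sub_iff_add_eq] at a1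
    rw [a1, inner_sub_right, inner_add_right, Complex.sub_re, Complex.add_re, hre, hin]
    simp [← inner_self_eq_norm_sq (𝕜 := ℂ) v]
  have b2 : (⟪v', L.starProjection u'⟫_ℂ).re = ‖L.starProjection u'‖ ^ 2 := by
    rw [map_sub, sub_eq_zero] at a2
    rw [← L.inner_starProjection_left_eq_right, ← a2, L.inner_starProjection_left_eq_right, hre]
  have b3 : ‖L.starProjection v‖ ^ 2 ≤ ‖v‖ ^ 2 :=
    pow_le_pow_left₀ (norm_nonneg _) (L.norm_starProjection_apply_le v) 2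
  have b4 : L.starProjection u' = 0 := by
    rw [b1, b2] at k1
    exact norm_eq_zero.1 (pow_eq_zero_iff two_ne_zero |>.1
      (le_antisymm (by linarith) (sq_nonneg _)))
  have b5 := (Submodule.mem_orthogonal _ _).1 ((Submodule.starProjection_apply_eq_zero_iff L).1 b4)
  have b6 : ∀ η : H, ⟪η, ζ⟫_ℂ = 0 := fun η => by
    refine hξ.induction_on η (isClosed_eq (by fun_prop) (by fun_prop)) fun b => ?_
    have := b5 (j b) (Submodule.le_topologicalClosure _ ⟨b, rfl⟩)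
    rwa [hj, hin, inner_zero_right, add_zero] at this
  exact (inner_self_eq_zero (𝕜 := ℂ) (x := ζ)).1 (b6 ζ)

end Vale.Agent.P078
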