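import Mathlib

/-! Abstract W*-algebras: a C*-algebra with a separating family `N` of positive functionals such
that bounded ultrafilters have weak limits. -/

namespace Vale.Agent.P078

open Filter Topology
open scoped ComplexOrder

universe u

/-- abstract von Neumann algebra -/
structure WAlg (M : Type u) [CStarAlgebra M] [PartialOrder M] [StarOrderedRing M] where
  N : Set (M →ₚ[ℂ] ℂ)
  sep : ∀ x : M, (∀ ω ∈ N, ω (star x * x) = 0) → x = 0
  wc : ∀ (𝒰 : Ultrafilter M) (R : ℝ), (∀ᶠ x in (𝒰 : Filter M), ‖x‖ ≤ R) →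
    ∃ y, ∀ ω ∈ N, ∀ a b, Tendsto (fun x => ω (a * x * b)) 𝒰 (𝓝 (ω (a * y * b)))

variable {M : Type u} [CStarAlgebra M] [PartialOrder M] [StarOrderedRing M]

/-- the `L²` seminorm of a positive functional -/
noncomputable def nrm (ω : M →ₚ[ℂ] ℂ) (x : M) : ℝ := √(ω (star x * x)).re

/-- `A` is its own relative commutant -/
def IsMasa (A : StarSubalgebra ℂ M) : Prop := ∀ x, x ∈ A ↔ ∀ a ∈ A, a * x = x * a

/-- `ψ (a x) = ψ (x a)` for `a ∈ A` -/
def Central (A : StarSubalgebra ℂ M) (ψ : M → ℂ) : Prop := ∀ a ∈ A, ∀ x, ψ (a * x) = ψ (x * a)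

/-- finite partition of unity in `A` indexed by a finite type -/
def IsPartn (A : StarSubalgebra ℂ M) {I : Type*} [Fintype I] (p : I → M) : Prop :=
  (∀ i, p i ∈ A ∧ IsStarProjection (p i)) ∧ (∀ i j, i ≠ j → p i * p j = 0) ∧ ∑ i, p i = 1

section nrm
variable (ω : M →ₚ[ℂ] ℂ)

lemma nrm_nonneg (x : M) : 0 ≤ nrm ω x := Real.sqrt_nonneg _

lemma nrm_sq (x : M) : nrm ω x ^ 2 = (ω (star x * x)).re := by
  exact Real.sq_sqrt (ω.map_nonneg (star_mul_self_nonneg x)).1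

lemma nrm_sq' (x : M) : ((nrm ω x ^ 2 : ℝ) : ℂ) = ω (star x * x) := by
  have := ω.preGNS_norm_sq (ω.toPreGNS x)
  push_cast
  exact this

lemma norm_apply_le_nrm (x y : M) : ‖ω (star x * y)‖ ≤ nrm ω x * nrm ω y := by
  exact norm_inner_le_norm (𝕜 := ℂ) (ω.toPreGNS x) (ω.toPreGNS y)

lemma nrm_add_le (x y : M) : nrm ω (x + y) ≤ nrm ω x + nrm ω y := by
  exact norm_add_le (ω.toPreGNS x) (ω.toPreGNS y)

lemma nrm_sub_le (x y : M) : nrm ω (x - y) ≤ nrm ω x + nrm ω y := by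
  exact norm_sub_le (ω.toPreGNS x) (ω.toPreGNS y)

lemma nrm_smul (c : ℂ) (x : M) : nrm ω (c • x) = ‖c‖ * nrm ω x := by
  exact norm_smul c (ω.toPreGNS x)

lemma nrm_sum_le {I : Type*} (s : Finset I) (f : I → M) :
    nrm ω (∑ i ∈ s, f i) ≤ ∑ i ∈ s, nrm ω (f i) := by
  exact norm_sum_le s (fun i => ω.toPreGNS (f i))

lemma nrm_mul_le (a x : M) : nrm ω (a * x) ≤ ‖a‖ * nrm ω x := by
  exact (ω.leftMulMapPreGNS a).le_of_opNorm_le
    (LinearMap.mkContinuous_norm_le _ (norm_nonneg a) _) (ω.toPreGNS x)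

lemma nrm_le_norm (x : M) : nrm ω x ≤ ‖x‖ * nrm ω 1 := by
  simpa using nrm_mul_le ω x 1

lemma re_mono {x y : M} (h : x ≤ y) : (ω x).re ≤ (ω y).re := by
  exact (OrderHomClass.mono ω h).1

lemma norm_apply_le_one_mul (x : M) : ‖ω x‖ ≤ (ω 1).re * ‖x‖ := by
  have h1 := norm_apply_le_nrm ω 1 x
  have h2 := nrm_le_norm ω x
  have h3 := nrm_sq ω 1
  simp only [star_one, one_mul] at h1 h3
  calc ‖ω x‖ ≤ nrm ω 1 * (‖x‖ * nrm ω 1) :=
        h1.trans (mul_le_mul_of_nonneg_left h2 (nrm_nonneg ω 1))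
    _ = _ := by rw [← h3]; ring

end nrm

namespace WAlg

variable (𝒲 : WAlg M)

/-- weak limit -/
def WLim {I : Type*} (l : Filter I) (f : I → M) (y : M) : Prop :=
  ∀ ω ∈ 𝒲.N, ∀ a b, Tendsto (fun i => ω (a * f i * b)) l (𝓝 (ω (a * y * b)))

/-- normal = weakly continuous on bounded sets -/
def Normal (ψ : M → ℂ) : Prop :=
  ∀ (𝒰 : Ultrafilter M) (R : ℝ) (y : M), (∀ᶠ x in (𝒰 : Filter M), ‖x‖ ≤ R) →
    𝒲.WLim (𝒰 : Filter M) id y → Tendsto ψ 𝒰 (𝓝 (ψ y))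

lemma exists_wlim {I : Type*} (𝒰 : Ultrafilter I) {f : I → M} {R : ℝ}
    (h : ∀ᶠ i in (𝒰 : Filter I), ‖f i‖ ≤ R) : ∃ y, 𝒲.WLim (𝒰 : Filter I) f y := by
  obtain ⟨y, hy⟩ := 𝒲.wc (𝒰.map f) R h
  exact ⟨y, fun ω hω a b => hy ω hω a b⟩

/-- use `b = CFC.sqrt (x⁻)` -/
lemma nonneg_of_forall {x : M} (h : ∀ ω ∈ 𝒲.N, ∀ b, 0 ≤ ω (star b * x * b)) : 0 ≤ x := by
  have hsa : IsSelfAdjoint x := by
    have h0 : ∀ ω ∈ 𝒲.N, ∀ b, ω (star b * (x - star x) * b) = 0 := by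
      intro ω hω b
      have e : star b * star x * b = star (star b * x * b) := by simp [mul_assoc]
      rw [mul_sub, sub_mul, map_sub, e, map_star, (h ω hω b).star_eq, sub_self]
    have h1 : x - star x = 0 := by
      refine 𝒲.sep _ (fun ω hω => ?_)
      set y := x - star x
      have k1 := h0 ω hω (y + 1)
      have k2 := h0 ω hω (y + Complex.I • (1 : M))
      have k3 := h0 ω hω y
      have k4 := h0 ω hω 1
      simp only [star_add, star_smul, star_one, add_mul, mul_add, map_add, smul_mul_assoc,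
        mul_smul_comm, map_smul, one_mul, mul_one, smul_eq_mul, k3, RCLike.star_def,
        Complex.conj_I] at k1 k2 k4
      rw [k4] at k1 k2
      have : Complex.I * (2 * ω (star y * y)) = 0 := by linear_combination k2 + Complex.I * k1
      simpa using this
    exact (sub_eq_zero.1 h1).symm
  have hn : 0 ≤ x⁻ := CFC.negPart_nonneg x
  have hs : IsSelfAdjoint x⁻ := hn.isSelfAdjoint
  have e : star x⁻ * x * x⁻ = -(x⁻ * x⁻ * x⁻) := by
    have e1 : x⁻ * x = -(x⁻ * x⁻) := by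
      calc x⁻ * x = x⁻ * (x⁺ - x⁻) := by rw [CFC.posPart_sub_negPart x hsa]
        _ = _ := by rw [mul_sub, CFC.negPart_mul_posPart, zero_sub]
    rw [hs.star_eq, e1, neg_mul]
  have h3 : 0 ≤ x⁻ * x⁻ * x⁻ := by
    have := star_left_conjugate_nonneg hn x⁻
    rwa [hs.star_eq] at this
  obtain ⟨c, hc⟩ := CStarAlgebra.nonneg_iff_eq_star_mul_self.1 h3
  have hc0 : c = 0 := by
    refine 𝒲.sep _ (fun ω hω => ?_)
    have k := h ω hω x⁻
    rw [e, map_neg, neg_nonneg] at k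
    rw [← hc]
    exact le_antisymm k (ω.map_nonneg h3)
  have h4 : x⁻ ^ 2 ^ 2 = 0 := by
    have : x⁻ ^ 2 ^ 2 = x⁻ * x⁻ * x⁻ * x⁻ := by norm_num [pow_succ]
    rw [this, hc, hc0]; simp
  have h5 := hs.norm_pow_two_pow 2
  rw [h4, norm_zero] at h5
  have h6 : x⁻ = 0 := norm_eq_zero.1 (pow_eq_zero_iff (by norm_num) |>.1 h5.symm)
  exact (CFC.negPart_eq_zero_iff x hsa).1 h6

lemma eq_of_forall {x y : M} (h : ∀ ω ∈ 𝒲.N, ∀ a, ω (a * x) = ω (a * y)) : x = y := by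
  refine sub_eq_zero.1 (𝒲.sep _ (fun ω hω => ?_))
  rw [mul_sub, map_sub, h ω hω, sub_self]

variable {𝒲}

namespace WLim
variable {I : Type*} {l : Filter I} {f g : I → M} {y z : M}

lemma unique [l.NeBot] (h : 𝒲.WLim l f y) (h' : 𝒲.WLim l f z) : y = z := by
  refine 𝒲.eq_of_forall (fun ω hω a => ?_)
  simpa using tendsto_nhds_unique (h ω hω a 1) (h' ω hω a 1)
lemma const (y : M) : 𝒲.WLim l (fun _ => y) y := by
  exact fun _ _ _ _ => tendsto_const_nhds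
lemma congr' (h : 𝒲.WLim l f y) (hfg : f =ᶠ[l] g) : 𝒲.WLim l g y := by
  refine fun ω hω a b => (h ω hω a b).congr' ?_
  filter_upwards [hfg] with i hi
  rw [hi]
lemma mono {l' : Filter I} (h : 𝒲.WLim l f y) (hl : l' ≤ l) : 𝒲.WLim l' f y := by
  exact fun ω hω a b => (h ω hω a b).mono_left hl
lemma add (h : 𝒲.WLim l f y) (h' : 𝒲.WLim l g z) : 𝒲.WLim l (fun i => f i + g i) (y + z) := by
  intro ω hω a b
  simpa only [mul_add, add_mul, map_add] using (h ω hω a b).add (h' ω hω a b)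
lemma sub (h : 𝒲.WLim l f y) (h' : 𝒲.WLim l g z) : 𝒲.WLim l (fun i => f i - g i) (y - z) := by
  intro ω hω a b
  simpa only [mul_sub, sub_mul, map_sub] using (h ω hω a b).sub (h' ω hω a b)
lemma smul (h : 𝒲.WLim l f y) (c : ℂ) : 𝒲.WLim l (fun i => c • f i) (c • y) := by
  intro ω hω a b
  simpa only [mul_smul_comm, smul_mul_assoc, map_smul] using (h ω hω a b).const_smul c
lemma mul_left (h : 𝒲.WLim l f y) (a : M) : 𝒲.WLim l (fun i => a * f i) (a * y) := by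
  intro ω hω c b
  simpa only [mul_assoc] using h ω hω (c * a) b
lemma mul_right (h : 𝒲.WLim l f y) (a : M) : 𝒲.WLim l (fun i => f i * a) (y * a) := by
  intro ω hω c b
  simpa only [mul_assoc] using h ω hω c (a * b)
lemma star (h : 𝒲.WLim l f y) : 𝒲.WLim l (fun i => star (f i)) (star y) := by
  intro ω hω a b
  have e : ∀ x : M, ω (a * Star.star x * b) = Star.star (ω (Star.star b * x * Star.star a)) := by
    intro x; rw [← map_star]; simp [mul_assoc]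
  simp only [e]
  exact (h ω hω _ _).star
lemma of_tendsto (h : Tendsto f l (𝓝 y)) : 𝒲.WLim l f y := by
  intro ω _ a b
  exact ((map_continuous ω).tendsto _).comp ((h.const_mul a).mul_const b)
lemma nonneg [l.NeBot] (h : 𝒲.WLim l f y) (h0 : ∀ᶠ i in l, 0 ≤ f i) : 0 ≤ y := by
  refine 𝒲.nonneg_of_forall (fun ω hω b => ge_of_tendsto (h ω hω _ b) ?_)
  filter_upwards [h0] with i hi
  exact ω.map_nonneg (star_left_conjugate_nonneg hi b)
lemma le [l.NeBot] (h : 𝒲.WLim l f y) (h' : 𝒲.WLim l g z) (h0 : ∀ᶠ i in l, f i ≤ g i) :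
    y ≤ z := by
  refine sub_nonneg.1 ((h'.sub h).nonneg ?_)
  filter_upwards [h0] with i hi
  exact sub_nonneg.2 hi
lemma isSelfAdjoint [l.NeBot] (h : 𝒲.WLim l f y) (h0 : ∀ᶠ i in l, IsSelfAdjoint (f i)) :
    IsSelfAdjoint y := by
  refine h.star.unique (h.congr' ?_)
  filter_upwards [h0] with i hi
  exact hi.star_eq.symm
lemma eq_of_eventually [l.NeBot] (h : 𝒲.WLim l f y) {a b c d : M}
    (h0 : ∀ᶠ i in l, a * f i * b = c * f i * d) : a * y * b = c * y * d := by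
  exact (((h.mul_left a).mul_right b).congr' h0).unique ((h.mul_left c).mul_right d)
/-- show `R ^ 2 - star y * y ≥ 0` with `nonneg_of_forall` and Cauchy-Schwarz -/
lemma norm_le [l.NeBot] (h : 𝒲.WLim l f y) {R : ℝ} (h0 : ∀ᶠ i in l, ‖f i‖ ≤ R) : ‖y‖ ≤ R := by
  have hR : 0 ≤ R := by
    obtain ⟨i, hi⟩ := h0.exists
    exact (norm_nonneg _).trans hi
  have key : ∀ ω ∈ 𝒲.N, ∀ b, nrm ω (y * b) ≤ R * nrm ω b := by
    intro ω hω b
    have h1 : ‖ω (Star.star (y * b) * y * b)‖ ≤ nrm ω (y * b) * (R * nrm ω b) := by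
      refine le_of_tendsto (h ω hω (Star.star (y * b)) b).norm ?_
      filter_upwards [h0] with i hi
      rw [mul_assoc]
      refine (norm_apply_le_nrm ω _ _).trans (mul_le_mul_of_nonneg_left ?_ (nrm_nonneg _ _))
      exact (nrm_mul_le ω _ _).trans (mul_le_mul_of_nonneg_right hi (nrm_nonneg _ _))
    rw [mul_assoc, ← nrm_sq', Complex.norm_real, Real.norm_eq_abs, abs_of_nonneg (sq_nonneg _),
      sq] at h1
    rcases (nrm_nonneg ω (y * b)).eq_or_lt with e | e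
    · rw [← e]; exact mul_nonneg hR (nrm_nonneg _ _)
    · exact le_of_mul_le_mul_left h1 e
  have h2 : 0 ≤ algebraMap ℝ M (R ^ 2) - Star.star y * y := by
    refine 𝒲.nonneg_of_forall (fun ω hω b => ?_)
    have e : Star.star b * (algebraMap ℝ M (R ^ 2) - Star.star y * y) * b =
        ((R ^ 2 : ℝ) : ℂ) • (Star.star b * b) - Star.star (y * b) * (y * b) := by
      rw [Algebra.algebraMap_eq_smul_one, Complex.coe_smul]
      simp [mul_sub, sub_mul, mul_assoc]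
    rw [e, map_sub, map_smul, ← nrm_sq', ← nrm_sq', smul_eq_mul, ← Complex.ofReal_mul,
      ← Complex.ofReal_sub, Complex.zero_le_real, sub_nonneg, ← mul_pow]
    exact pow_le_pow_left₀ (nrm_nonneg _ _) (key ω hω b) 2
  have h3 := (CStarAlgebra.norm_le_iff_le_algebraMap (Star.star y * y) (sq_nonneg R)
    (star_mul_self_nonneg y)).2 (sub_nonneg.1 h2)
  rw [CStarRing.norm_star_mul_self, ← sq] at h3
  exact (pow_le_pow_iff_left₀ (norm_nonneg _) hR two_ne_zero).1 h3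
lemma mem_masa [l.NeBot] (h : 𝒲.WLim l f y) {A : StarSubalgebra ℂ M} (hA : IsMasa A)
    (h0 : ∀ᶠ i in l, f i ∈ A) : y ∈ A := by
  refine (hA y).2 (fun a ha => ?_)
  have := h.eq_of_eventually (a := a) (b := 1) (c := 1) (d := a) (by
    filter_upwards [h0] with i hi
    simpa using (hA _).1 hi a ha)
  simpa using this
end WLim

namespace Normal
variable {ψ ψ' : M → ℂ}

lemma tendsto (h : 𝒲.Normal ψ) {I : Type*} {l : Filter I} {f : I → M} {y : M} {R : ℝ}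
    (hb : ∀ᶠ i in l, ‖f i‖ ≤ R) (hf : 𝒲.WLim l f y) : Tendsto (fun i => ψ (f i)) l (𝓝 (ψ y)) := by
  refine (tendsto_iff_ultrafilter _ _ _).2 (fun g hg => ?_)
  exact h (g.map f) R y (hg hb) (fun ω hω a b => (hf ω hω a b).mono_left hg)
lemma of_mem {ω : M →ₚ[ℂ] ℂ} (h : ω ∈ 𝒲.N) : 𝒲.Normal ω := by
  intro 𝒰 _ y _ hy
  simpa using hy ω h 1 1
lemma mul (h : 𝒲.Normal ψ) (a b : M) : 𝒲.Normal fun x => ψ (a * x * b) := by
  intro 𝒰 R y hb hy
  refine h.tendsto (R := ‖a‖ * R * ‖b‖) ?_ ((hy.mul_left a).mul_right b)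
  filter_upwards [hb] with x hx
  refine (norm_mul_le _ _).trans (mul_le_mul_of_nonneg_right ?_ (norm_nonneg _))
  exact (norm_mul_le _ _).trans (mul_le_mul_of_nonneg_left hx (norm_nonneg _))
lemma add (h : 𝒲.Normal ψ) (h' : 𝒲.Normal ψ') : 𝒲.Normal fun x => ψ x + ψ' x := by
  exact fun 𝒰 R y hb hy => (h 𝒰 R y hb hy).add (h' 𝒰 R y hb hy)
lemma const_mul (h : 𝒲.Normal ψ) (c : ℂ) : 𝒲.Normal fun x => c * ψ x := by
  exact fun 𝒰 R y hb hy => (h 𝒰 R y hb hy).const_mul c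
lemma star (h : 𝒲.Normal ψ) : 𝒲.Normal fun x => star (ψ (star x)) := by
  intro 𝒰 R y hb hy
  refine (h.tendsto (R := R) ?_ hy.star).star
  filter_upwards [hb] with x hx
  rwa [norm_star]
lemma of_approx (h : ∀ ε > 0, ∃ ψ' : M → ℂ, 𝒲.Normal ψ' ∧ ∀ x, ‖ψ x - ψ' x‖ ≤ ε * ‖x‖) :
    𝒲.Normal ψ := by
  intro 𝒰 R y hb hy
  refine Metric.tendsto_nhds.2 (fun ε hε => ?_)
  have hK : 0 < |R| + ‖y‖ + 1 := by positivity
  obtain ⟨ψ', hn, hc⟩ := h (ε / 2 / (|R| + ‖y‖ + 1)) (by positivity)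
  filter_upwards [hb, Metric.tendsto_nhds.1 (hn 𝒰 R y hb hy) (ε / 2) (half_pos hε)] with x h1 h2
  rw [dist_eq_norm] at h2 ⊢
  have e : ψ x - ψ y = (ψ x - ψ' x) + (ψ' x - ψ' y) - (ψ y - ψ' y) := by ring
  have k1 : ‖ψ x - ψ y‖ ≤ ‖ψ x - ψ' x‖ + ‖ψ' x - ψ' y‖ + ‖ψ y - ψ' y‖ := by
    rw [e]; exact (norm_sub_le _ _).trans (add_le_add_left (norm_add_le _ _) _)
  have k2 : ε / 2 / (|R| + ‖y‖ + 1) * (‖x‖ + ‖y‖) ≤ ε / 2 := by
    rw [div_mul_eq_mul_div, div_le_iff₀ hK]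
    exact mul_le_mul_of_nonneg_left (by linarith [le_abs_self R]) (half_pos hε).le
  linarith [hc x, hc y]
/-- lower semicontinuity of the `L²` norm -/
lemma nrm_le {ω : M →ₚ[ℂ] ℂ} (h : 𝒲.Normal ω) {I : Type*} {l : Filter I} [l.NeBot] {f : I → M}
    {y : M} {R c : ℝ} (hb : ∀ᶠ i in l, ‖f i‖ ≤ R) (hf : 𝒲.WLim l f y)
    (hc : ∀ᶠ i in l, nrm ω (f i) ≤ c) : nrm ω y ≤ c := by
  have hc0 : 0 ≤ c := by
    obtain ⟨i, hi⟩ := hc.exists
    exact (nrm_nonneg _ _).trans hi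
  have h1 : ‖ω (Star.star y * y * 1)‖ ≤ nrm ω y * c := by
    refine le_of_tendsto ((h.mul (Star.star y) 1).tendsto hb hf).norm ?_
    filter_upwards [hc] with i hi
    rw [mul_one]
    exact (norm_apply_le_nrm ω _ _).trans (mul_le_mul_of_nonneg_left hi (nrm_nonneg _ _))
  rw [mul_one, ← nrm_sq', Complex.norm_real, Real.norm_eq_abs, abs_of_nonneg (sq_nonneg _),
    sq] at h1
  rcases (nrm_nonneg ω y).eq_or_lt with e | e
  · rw [← e]; exact hc0
  · exact le_of_mul_le_mul_left h1 e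
end Normal

end WAlg

end Vale.Agent.P078
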